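import Vale.Agent.P254.Mahler.Variation
import Vale.Agent.P254.Asymptotics

/-!
A uniform bound `C` on the isotropic constant gives the general volume product bound
`(e C) ^ (-2 (n + 1))` times the value of a simplex.
-/

open MeasureTheory Set Matrix
open scoped Pointwise

namespace Vale.Agent.P254.Mahler

open Vale.Agent.P248 (polarBody)

/-- `det Σ ≤ (e C) ^ (2 (n + 1)) simplexDisp n |K| ^ 2` in every dimension. -/
lemma det_le_of_bound {C : ℝ} (hC : 0 < C)
    (H : ∀ N : ℕ, 0 < N → ∀ Q : Set (Fin N → ℝ), Convex ℝ Q → IsCompact Q →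
      (interior Q).Nonempty → isoConst Q ≤ C)
    {n : ℕ} {K : Set (Fin n → ℝ)} (hK : IsBody K) :
    (covMatrix K).det ≤
      (Real.exp 1 * C) ^ (2 * (n + 1)) * simplexDisp n * volume.real K ^ 2 := by
  have h := ratio_le_of_asymptotic (n₀ := 1) hC (fun N hN => H N hN) hK
  rw [Fintype.card_fin] at h
  have e := det_cov_div hK
  rw [Fintype.card_fin, mul_div_assoc, ← simplexDisp] at e
  rw [← div_le_iff₀ (pow_pos hK.volume_pos 2), e]
  exact mul_le_mul_of_nonneg_right h (simplexDisp_pos n).le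

/-- The general Mahler bound from a uniform slicing bound. -/
theorem mahler_of_bound {C : ℝ} (hC : 0 < C)
    (H : ∀ N : ℕ, 0 < N → ∀ Q : Set (Fin N → ℝ), Convex ℝ Q → IsCompact Q →
      (interior Q).Nonempty → isoConst Q ≤ C)
    {n : ℕ} {K : Set (Fin n → ℝ)} (hc : Convex ℝ K) (hk : IsCompact K) {z : Fin n → ℝ}
    (hz : z ∈ interior K) :
    ((Real.exp 1 * C) ^ (2 * (n + 1)))⁻¹ *
        (((n : ℝ) + 1) ^ (n + 1) / (n.factorial : ℝ) ^ 2) ≤
      volume.real K * volume.real (polarBody ((fun x => x - z) '' K)) := by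
  have e : (fun x => x - z) '' K = (-z) +ᵥ K := by
    rw [← Set.image_vadd]
    exact image_congr fun x _ => by simp [sub_eq_neg_add]
  obtain ⟨hB, hB0⟩ := isBody_vadd hc hk hz
  have hv : volume.real ((-z) +ᵥ K) = volume.real K := by
    rw [Measure.real, Measure.real, measure_vadd]
  have hD : 0 < (Real.exp 1 * C) ^ (2 * (n + 1)) * simplexDisp n :=
    mul_pos (pow_pos (mul_pos (Real.exp_pos 1) hC) _) (simplexDisp_pos n)
  have h := volume_product_ge hD (fun L hL => det_le_of_bound hC H hL) hB hB0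
  rw [hv] at h
  rw [e]
  refine le_trans (le_of_eq ?_) h
  unfold simplexDisp
  field_simp

end Vale.Agent.P254.Mahler
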