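import Vale.Agent.P254.Mahler.Bound
import Vale.Agent.P254M.BodyBound

/-!
The general volume product bound from a bound on the entropy gap of log-concave laws.
-/

open MeasureTheory Set

namespace Vale.Agent.P254.Mahler

open Vale.Agent.P248 (polarBody)
open Vale.Agent.P254M (GapLe isoConst_le_of_gap)

/-- An entropy gap `g` gives the volume product bound with the factor
`(2π exp (-2g - 1)) ^ (n + 1)`. -/
theorem mahler_of_gap {g : ℝ} (hgap : GapLe g) {n : ℕ} {K : Set (Fin n → ℝ)} (hc : Convex ℝ K)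
    (hk : IsCompact K) {z : Fin n → ℝ} (hz : z ∈ interior K) :
    (2 * Real.pi * Real.exp (-(2 * g + 1))) ^ (n + 1) *
        (((n : ℝ) + 1) ^ (n + 1) / (n.factorial : ℝ) ^ 2) ≤
      volume.real K * volume.real (polarBody ((fun x => x - z) '' K)) := by
  have hC : 0 < Real.exp g / Real.sqrt (2 * Real.pi * Real.exp 1) := by positivity
  refine le_trans (le_of_eq ?_)
    (mahler_of_bound hC (fun N hN Q h1 h2 h3 => isoConst_le_of_gap hgap hN h1 h2 h3) hc hk hz)
  congr 1
  rw [pow_mul, ← inv_pow]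
  congr 1
  have hs : 0 ≤ 2 * Real.pi * Real.exp 1 := by positivity
  rw [mul_pow, div_pow, Real.sq_sqrt hs, ← Real.exp_nat_mul g 2, ← Real.exp_nat_mul 1 2]
  rw [Real.exp_neg, Real.exp_add, show ((2 : ℕ) : ℝ) * 1 = 1 + 1 by norm_num, Real.exp_add,
    show ((2 : ℕ) : ℝ) * g = 2 * g by norm_num]
  field_simp

end Vale.Agent.P254.Mahler
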