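import Vale.Agent.P254.Cov
import Vale.Agent.P248.Defs

/-!
Polar bodies: the bipolar identity and the volume of the polar of a translated body as an integral
over the body.
-/

open MeasureTheory Set Matrix
open scoped Pointwise

namespace Vale.Agent.P254.Mahler

open Vale.Agent.P248 (polarBody)

variable {n : ℕ}

lemma mem_polar {K : Set (Fin n → ℝ)} {y : Fin n → ℝ} :
    y ∈ polarBody K ↔ ∀ x ∈ K, y ⬝ᵥ x ≤ 1 := Iff.rfl

lemma abs_dot_le (y x : Fin n → ℝ) : |y ⬝ᵥ x| ≤ n * ‖y‖ * ‖x‖ := by
  refine (Finset.abs_sum_le_sum_abs _ _).trans ?_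
  calc ∑ i, |y i * x i| ≤ ∑ _i : Fin n, ‖y‖ * ‖x‖ := by
        refine Finset.sum_le_sum fun i _ => ?_
        rw [abs_mul]
        exact mul_le_mul (by simpa using norm_le_pi_norm y i) (by simpa using norm_le_pi_norm x i)
          (abs_nonneg _) (norm_nonneg _)
    _ = _ := by simp [mul_assoc]

lemma continuous_dot (y : Fin n → ℝ) : Continuous fun x : Fin n → ℝ => y ⬝ᵥ x := by
  simp only [dotProduct]; fun_prop

/-- A continuous linear functional on coordinate space is a dot product. -/
lemma exists_dot (f : (Fin n → ℝ) →L[ℝ] ℝ) : ∃ u : Fin n → ℝ, ∀ x, f x = u ⬝ᵥ x := by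
  refine ⟨fun i => f fun j => if i = j then 1 else 0, fun x => ?_⟩
  have := f.toLinearMap.pi_apply_eq_sum_univ x
  simpa [dotProduct, mul_comm] using this

/-- The polar of a body around the origin is such a body. -/
lemma isBody_polar {K : Set (Fin n → ℝ)} (hK : IsBody K) (h0 : (0 : Fin n → ℝ) ∈ interior K) :
    IsBody (polarBody K) ∧ (0 : Fin n → ℝ) ∈ interior (polarBody K) := by
  have hcl : IsClosed (polarBody K) := by
    have : polarBody K = ⋂ x ∈ K, {y | y ⬝ᵥ x ≤ 1} := by ext; simp [mem_polar]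
    rw [this]
    exact isClosed_biInter fun x _ => isClosed_le (by simp only [dotProduct]; fun_prop)
      continuous_const
  have hconv : Convex ℝ (polarBody K) := fun y hy z hz a b ha hb hab x hx => by
    have h1 := mem_polar.1 hy x hx
    have h2 := mem_polar.1 hz x hx
    change (a • y + b • z) ⬝ᵥ x ≤ 1
    rw [add_dotProduct, smul_dotProduct, smul_dotProduct, smul_eq_mul, smul_eq_mul]
    calc a * (y ⬝ᵥ x) + b * (z ⬝ᵥ x) ≤ a * 1 + b * 1 := by gcongr
      _ = 1 := by linarith
  obtain ⟨r, hr, hball⟩ := Metric.mem_nhds_iff.1 (mem_interior_iff_mem_nhds.1 h0)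
  have hbdd : Bornology.IsBounded (polarBody K) := by
    refine (isBounded_iff_forall_norm_le).2 ⟨2 / r, fun y hy => ?_⟩
    refine (pi_norm_le_iff_of_nonneg (by positivity)).2 fun i => ?_
    have key : ∀ t : ℝ, |t| = r / 2 → y i * t ≤ 1 := fun t ht => by
      have hm : Pi.single i t ∈ K := hball (by
        rw [mem_ball_zero_iff, Pi.norm_single, Real.norm_eq_abs, ht]
        linarith)
      simpa using mem_polar.1 hy _ hm
    have h1 := key (r / 2) (abs_of_pos (by linarith))
    have h2 := key (-(r / 2)) (by rw [abs_neg]; exact abs_of_pos (by linarith))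
    rw [Real.norm_eq_abs, abs_le, neg_div']
    constructor
    · rw [div_le_iff₀ hr]; nlinarith
    · rw [le_div_iff₀ hr]; nlinarith
  obtain ⟨R, hR⟩ := isBounded_iff_forall_norm_le.1 hK.compact.isBounded
  have hint : (0 : Fin n → ℝ) ∈ interior (polarBody K) := by
    refine mem_interior_iff_mem_nhds.2 (Metric.mem_nhds_iff.2
      ⟨1 / ((n : ℝ) * |R| + 1), by positivity, fun y hy x hx => ?_⟩)
    rw [mem_ball_zero_iff, lt_div_iff₀ (by positivity)] at hy
    change y ⬝ᵥ x ≤ 1
    calc y ⬝ᵥ x ≤ n * ‖y‖ * ‖x‖ := (le_abs_self _).trans (abs_dot_le y x)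
      _ ≤ n * ‖y‖ * |R| := by gcongr; exact (hR x hx).trans (le_abs_self R)
      _ ≤ 1 := by nlinarith [norm_nonneg y]
  exact ⟨⟨hconv, Metric.isCompact_of_isClosed_isBounded hcl hbdd, ⟨0, hint⟩,
    interior_subset hint⟩, hint⟩

/-- Bipolar: a point whose products with the polar are at most `r` lies in `r • K`. -/
lemma mem_smul_of_polar {K : Set (Fin n → ℝ)} (hK : IsBody K) {x : Fin n → ℝ} {r : ℝ}
    (hr : 0 < r) (h : ∀ y ∈ polarBody K, y ⬝ᵥ x ≤ r) : x ∈ r • K := by
  rw [Set.mem_smul_set_iff_inv_smul_mem₀ hr.ne']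
  by_contra hx
  obtain ⟨f, u, hfK, hfx⟩ :=
    geometric_hahn_banach_closed_point hK.convex hK.compact.isClosed hx
  obtain ⟨v, hv⟩ := exists_dot f
  have hu : 0 < u := by simpa using hfK 0 hK.zero_mem
  have hy : u⁻¹ • v ∈ polarBody K := mem_polar.2 fun z hz => by
    rw [smul_dotProduct, smul_eq_mul, ← hv, inv_mul_le_one₀ hu]
    exact (hfK z hz).le
  have h2 := h _ hy
  rw [smul_dotProduct, smul_eq_mul] at h2
  rw [hv, dotProduct_smul, smul_eq_mul] at hfx
  rw [inv_mul_le_iff₀ hu] at h2
  rw [lt_inv_mul_iff₀ hr] at hfx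
  linarith

/-- The polar of the polar is the body. -/
lemma polar_polar {K : Set (Fin n → ℝ)} (hK : IsBody K) : polarBody (polarBody K) = K := by
  ext x
  constructor
  · intro hx
    have := mem_smul_of_polar hK one_pos fun y hy => by
      rw [dotProduct_comm]; exact mem_polar.1 hx y hy
    simpa using this
  · intro hx
    exact mem_polar.2 fun y hy => by rw [dotProduct_comm]; exact mem_polar.1 hy x hx

lemma isBody_vadd {K : Set (Fin n → ℝ)} (hc : Convex ℝ K) (hk : IsCompact K) {z : Fin n → ℝ}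
    (hz : z ∈ interior K) :
    IsBody ((-z) +ᵥ K) ∧ (0 : Fin n → ℝ) ∈ interior ((-z) +ᵥ K) := by
  have hint : (0 : Fin n → ℝ) ∈ interior ((-z) +ᵥ K) := by
    rw [interior_vadd]
    exact ⟨z, hz, by simp⟩
  exact ⟨⟨hc.vadd _, hk.vadd _, ⟨0, hint⟩, interior_subset hint⟩, hint⟩

lemma mem_smul_iff_dot {K : Set (Fin n → ℝ)} (hK : IsBody K) (y : Fin n → ℝ) {t : ℝ}
    (ht : 0 < t) : y ∈ t • K ↔ ∀ q ∈ polarBody K, q ⬝ᵥ y ≤ t := by
  refine ⟨?_, mem_smul_of_polar hK ht⟩
  rintro ⟨x, hx, rfl⟩ q hq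
  simp only [dotProduct_smul, smul_eq_mul]
  exact mul_le_of_le_one_right ht.le (mem_polar.1 hq x hx)

lemma dilations_nonempty {K : Set (Fin n → ℝ)} (h0 : (0 : Fin n → ℝ) ∈ interior K)
    (y : Fin n → ℝ) : (dilations K y).Nonempty := by
  obtain ⟨r, hr, hball⟩ := Metric.mem_nhds_iff.1 (mem_interior_iff_mem_nhds.1 h0)
  set t := ‖y‖ / r + 1
  have ht : 0 < t := by positivity
  refine ⟨t, ht.le, (Set.mem_smul_set_iff_inv_smul_mem₀ ht.ne' _ _).2 (hball ?_)⟩
  rw [mem_ball_zero_iff, norm_smul, norm_inv, Real.norm_of_nonneg ht.le, inv_mul_lt_iff₀ ht,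
    add_mul, div_mul_cancel₀ _ hr.ne']
  linarith

lemma integral_Ioi_exp_neg_mul_pow {a : ℝ} (ha : 0 < a) (k : ℕ) :
    ∫ t in Ioi (0 : ℝ), Real.exp (-(a * t)) * t ^ k = (k.factorial : ℝ) * (a ^ (k + 1))⁻¹ := by
  have h := Real.integral_rpow_mul_exp_neg_mul_Ioi (a := (k : ℝ) + 1) (by positivity) ha
  rw [Real.Gamma_nat_eq_factorial] at h
  simp only [add_sub_cancel_right, Real.rpow_natCast] at h
  rw [show ((k : ℝ) + 1) = ((k + 1 : ℕ) : ℝ) by push_cast; ring, Real.rpow_natCast] at h
  rw [← inv_pow, ← one_div, ← mul_comm (((1 : ℝ) / a) ^ (k + 1)), ← h]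
  exact setIntegral_congr_fun measurableSet_Ioi fun t _ => by ring

/-- The exponential weight of a body against an exponential. -/
lemma integral_expWeight_exp {K : Set (Fin n → ℝ)} (hK : IsCompact K) {z : Fin n → ℝ}
    (hz : ∀ x ∈ K, z ⬝ᵥ x < 1) :
    ∫ y, expWeight K y * Real.exp (z ⬝ᵥ y) =
      (n.factorial : ℝ) * ∫ x in K, ((1 - z ⬝ᵥ x) ^ (n + 1))⁻¹ := by
  set μ : Measure ℝ := volume.restrict (Ioi (0 : ℝ))
  let A : Set ((Fin n → ℝ) × ℝ) := {p | 0 < p.2 ∧ p.2⁻¹ • p.1 ∈ K}
  have hA : MeasurableSet A :=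
    (measurableSet_lt measurable_const measurable_snd).inter
      (hK.measurableSet.preimage (by fun_prop))
  let e : (Fin n → ℝ) × ℝ → ℝ := fun p => Real.exp (-p.2) * Real.exp (z ⬝ᵥ p.1)
  let F : (Fin n → ℝ) × ℝ → ℝ := A.indicator e
  have hec : Continuous e := by simp only [e, dotProduct]; fun_prop
  have hsec : ∀ t, 0 < t → (fun y => F (y, t)) = (t • K).indicator fun y => e (y, t) := by
    intro t ht
    ext y
    have : (y, t) ∈ A ↔ y ∈ t • K := by
      rw [Set.mem_smul_set_iff_inv_smul_mem₀ ht.ne']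
      simp [A, ht]
    by_cases hy : y ∈ t • K
    · simp [F, indicator_of_mem (this.2 hy), indicator_of_mem hy]
    · simp [F, indicator_of_notMem (this.not.2 hy), indicator_of_notMem hy]
  have hint : ∀ t, 0 < t → ∫ y, (t • K).indicator (fun y => e (y, t)) y =
      Real.exp (-t) * t ^ n * ∫ x in K, Real.exp (t * (z ⬝ᵥ x)) := by
    intro t ht
    simp only [e]
    rw [integral_indicator ((hK.smul t).measurableSet), integral_const_mul]
    have h := Measure.setIntegral_comp_smul_of_pos volume (fun y => Real.exp (z ⬝ᵥ y)) K ht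
    simp only [Module.finrank_pi, smul_eq_mul, Fintype.card_fin, dotProduct_smul] at h
    have htn : t ^ n ≠ 0 := by positivity
    rw [h]; field_simp
  let G : (Fin n → ℝ) → ℝ → ℝ := fun x t => Real.exp (-((1 - z ⬝ᵥ x) * t)) * t ^ n
  have hGc : Continuous (Function.uncurry G) := by
    simp only [G, dotProduct]; fun_prop
  obtain ⟨d, hd, hdz⟩ : ∃ d > (0 : ℝ), ∀ x ∈ K, d ≤ 1 - z ⬝ᵥ x := by
    rcases K.eq_empty_or_nonempty with rfl | hne
    · exact ⟨1, one_pos, by simp⟩
    · obtain ⟨x₀, hx₀, hmax⟩ := hK.exists_isMaxOn hne (continuous_dot z).continuousOn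
      exact ⟨1 - z ⬝ᵥ x₀, by linarith [hz x₀ hx₀], fun x hx =>
        sub_le_sub_left (hmax hx) 1⟩
  have hGdom : Integrable (fun t : ℝ => Real.exp (-(d * t)) * t ^ n) μ := by
    have := integrableOn_rpow_mul_exp_neg_mul_rpow (p := 1) (s := (n : ℝ)) (b := d)
      (by linarith [n.cast_nonneg (α := ℝ)]) one_pos hd
    refine this.congr_fun (fun t _ => ?_) measurableSet_Ioi
    simp only [Real.rpow_natCast, Real.rpow_one, neg_mul]
    ring
  haveI : IsFiniteMeasure ((volume : Measure (Fin n → ℝ)).restrict K) :=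
    isFiniteMeasure_restrict.2 hK.measure_lt_top.ne
  have hGi : Integrable (Function.uncurry G) ((volume.restrict K).prod μ) := by
    refine Integrable.mono' ((integrable_const (1 : ℝ)).mul_prod hGdom)
      hGc.aestronglyMeasurable ?_
    refine Measure.ae_prod_iff_ae_ae (measurableSet_le (by fun_prop) (by fun_prop)) |>.2 ?_
    filter_upwards [ae_restrict_mem hK.measurableSet] with x hx
    filter_upwards [ae_restrict_mem measurableSet_Ioi] with t ht
    rw [mem_Ioi] at ht
    simp only [Function.uncurry, G, one_mul, Real.norm_eq_abs, abs_mul, Real.abs_exp,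
      abs_of_nonneg (pow_nonneg ht.le n)]
    gcongr
    nlinarith [hdz x hx]
  have hFm : AEStronglyMeasurable F (volume.prod μ) :=
    (hec.measurable.indicator hA).aestronglyMeasurable
  have hsum : ∀ t, 0 < t →
      Real.exp (-t) * t ^ n * ∫ x in K, Real.exp (t * (z ⬝ᵥ x)) = ∫ x in K, G x t := by
    intro t _
    rw [← integral_const_mul]
    refine setIntegral_congr_fun hK.measurableSet fun x _ => ?_
    simp only [G]
    rw [show -((1 - z ⬝ᵥ x) * t) = -t + t * (z ⬝ᵥ x) by ring, Real.exp_add]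
    ring
  have hFi : Integrable F (volume.prod μ) := by
    refine (integrable_prod_iff' hFm).2 ⟨?_, ?_⟩
    · refine (ae_restrict_mem measurableSet_Ioi).mono fun t ht => ?_
      rw [hsec t ht, integrable_indicator_iff (hK.smul t).measurableSet]
      exact (hec.comp (by fun_prop : Continuous fun y : Fin n → ℝ => (y, t))).continuousOn
        |>.integrableOn_compact (hK.smul t)
    · refine (hGi.integral_prod_right).congr ?_
      refine (ae_restrict_mem measurableSet_Ioi).mono fun t ht => ?_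
      rw [mem_Ioi] at ht
      change ∫ x in K, G x t = ∫ y, ‖F (y, t)‖
      rw [← hsum t ht, ← hint t ht, ← hsec t ht]
      refine integral_congr_ae (Filter.Eventually.of_forall fun y => ?_)
      exact (Real.norm_of_nonneg (indicator_nonneg (fun _ _ => by positivity) _)).symm
  have h1 : ∀ y, expWeight K y * Real.exp (z ⬝ᵥ y) = ∫ t, F (y, t) ∂μ := by
    intro y
    rw [expWeight, ← integral_mul_const]
    refine setIntegral_congr_fun measurableSet_Ioi fun t ht => ?_
    rw [mem_Ioi] at ht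
    have := congr_fun (hsec t ht) y
    beta_reduce at this ⊢
    rw [this]
    by_cases hy : y ∈ t • K
    · simp [dilations, indicator, hy, ht.le, e]
    · simp [dilations, indicator, hy]
  simp_rw [h1]
  rw [integral_integral_swap (f := fun y t => F (y, t)) hFi]
  calc ∫ t, (∫ y, F (y, t)) ∂μ = ∫ t, (∫ x in K, G x t) ∂μ := by
        refine setIntegral_congr_fun measurableSet_Ioi fun t ht => ?_
        simp only [hsec t ht]
        rw [hint t ht, hsum t ht]
    _ = ∫ x in K, ∫ t, G x t ∂μ := (integral_integral_swap hGi).symm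
    _ = _ := by
        rw [← integral_const_mul]
        refine setIntegral_congr_fun hK.measurableSet fun x hx => ?_
        exact integral_Ioi_exp_neg_mul_pow (by linarith [hz x hx]) n

/-- The volume of the polar of the translated polar as an integral over the body. -/
theorem volume_polar_vadd_polar {K : Set (Fin n → ℝ)} (hK : IsBody K)
    (h0 : (0 : Fin n → ℝ) ∈ interior K) {z : Fin n → ℝ} (hz : z ∈ interior (polarBody K))
    (hz1 : ∀ x ∈ K, z ⬝ᵥ x < 1) :
    volume.real (polarBody ((-z) +ᵥ polarBody K)) =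
      ∫ x in K, ((1 - z ⬝ᵥ x) ^ (n + 1))⁻¹ := by
  obtain ⟨hP, hP0⟩ := isBody_polar hK h0
  obtain ⟨hC, hC0⟩ := isBody_vadd hP.convex hP.compact hz
  obtain ⟨hD, hD0⟩ := isBody_polar hC hC0
  set D := polarBody ((-z) +ᵥ polarBody K) with hDdef
  have hw : ∀ y, expWeight D y = expWeight K y * Real.exp (z ⬝ᵥ y) := by
    intro y
    rw [expWeight_of_nonempty hD.convex hD.zero_mem (dilations_nonempty hD0 y),
      expWeight_of_nonempty hK.convex hK.zero_mem (dilations_nonempty h0 y), ← Real.exp_add]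
    congr 1
    have hiff : ∀ t, 0 < t → (y ∈ t • D ↔ ∀ q ∈ polarBody K, q ⬝ᵥ y ≤ t + z ⬝ᵥ y) := by
      intro t ht
      rw [mem_smul_iff_dot hD y ht, hDdef, polar_polar hC]
      constructor
      · intro h q hq
        have := h ((-z) +ᵥ q) ⟨q, hq, rfl⟩
        rw [vadd_eq_add, add_dotProduct, neg_dotProduct] at this
        linarith
      · rintro h _ ⟨q, hq, rfl⟩
        change ((-z) +ᵥ q) ⬝ᵥ y ≤ t
        rw [vadd_eq_add, add_dotProduct, neg_dotProduct]
        linarith [h q hq]
    have hD' : ∀ t, t ∈ dilations D y → ∀ q ∈ polarBody K, q ⬝ᵥ y ≤ t + z ⬝ᵥ y := by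
      intro t ht q hq
      refine le_of_forall_pos_le_add fun δ hδ => ?_
      have := (hiff (t + δ) (by linarith [ht.1])).1
        (dilations_mono hD.convex hD.zero_mem ht (by linarith)).2 q hq
      linarith
    have hzz : z ∈ polarBody K := interior_subset hz
    set p := sInf (dilations D y) with hp
    set s := sInf (dilations K y) with hs
    have h1 : p ≤ s - z ⬝ᵥ y := by
      refine le_of_forall_pos_le_add fun δ hδ => ?_
      obtain ⟨t, ht, hts⟩ := exists_lt_of_csInf_lt (dilations_nonempty h0 y)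
        (show s < s + δ / 2 by linarith)
      have hq : ∀ q ∈ polarBody K, q ⬝ᵥ y ≤ t := by
        intro q hq
        obtain ⟨x, hx, rfl⟩ := ht.2
        simp only [dotProduct_smul, smul_eq_mul]
        exact mul_le_of_le_one_right ht.1 (mem_polar.1 hq x hx)
      have hpos : 0 < t - z ⬝ᵥ y + δ / 2 := by linarith [hq z hzz]
      refine (csInf_le (dilations_bddBelow D y) (a := t - z ⬝ᵥ y + δ / 2)
        ⟨hpos.le, (hiff _ hpos).2 fun q hq' => by linarith [hq q hq']⟩).trans ?_
      linarith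
    have h2 : s ≤ p + z ⬝ᵥ y := by
      refine le_of_forall_pos_le_add fun δ hδ => ?_
      obtain ⟨t, ht, htp⟩ := exists_lt_of_csInf_lt (dilations_nonempty hD0 y)
        (show p < p + δ / 2 by linarith)
      have hq := hD' t ht
      have hpos : 0 ≤ t + z ⬝ᵥ y := by
        have := hq 0 (interior_subset hP0)
        simpa using this
      refine (csInf_le (dilations_bddBelow K y) (a := t + z ⬝ᵥ y + δ / 2)
        ⟨by linarith, mem_smul_of_polar hK (by linarith) fun q hq' => by
          linarith [hq q hq']⟩).trans ?_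
      linarith
    linarith
  have h := integral_expWeight_mul hD.compact (f := fun _ => (1 : ℝ)) continuous_const 0
    (fun t _ x => by simp)
  simp only [mul_one, add_zero, Fintype.card_fin, setIntegral_const, smul_eq_mul] at h
  simp_rw [hw] at h
  rw [integral_expWeight_exp hK.compact hz1] at h
  exact (mul_left_cancel₀ (by positivity) h).symm

end Vale.Agent.P254.Mahler
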