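import Vale.Agent.P254.Slack
import Vale.Agent.P254.Mahler.Polar

/-!
Two matrix facts: a pairing inequality between two positive definite forms bounds the product of
their determinants from below; a body with small covariance has a large polar.
-/

open MeasureTheory Set Matrix
open scoped Pointwise MatrixOrder

namespace Vale.Agent.P254.Mahler

open Vale.Agent.P248 (polarBody)

variable {n : ℕ}

lemma exists_factor {S : Matrix (Fin n) (Fin n) ℝ} (hS : S.PosDef) :
    ∃ B : Matrix (Fin n) (Fin n) ℝ, S = Bᵀ * B ∧ B.det ≠ 0 := by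
  obtain ⟨B, hB⟩ := CStarAlgebra.nonneg_iff_eq_star_mul_self.mp hS.posSemidef.nonneg
  rw [star_eq_conjTranspose, conjTranspose_eq_transpose_of_trivial] at hB
  refine ⟨B, hB, fun h => hS.det_pos.ne' ?_⟩
  rw [hB, det_mul, h, mul_zero]

lemma quad_factor (B : Matrix (Fin n) (Fin n) ℝ) (a : Fin n → ℝ) :
    a ⬝ᵥ (Bᵀ * B) *ᵥ a = (B *ᵥ a) ⬝ᵥ (B *ᵥ a) := by
  rw [← mulVec_mulVec, dotProduct_mulVec, vecMul_transpose]

/-- If the pairing is at most `Λ` times the two norms, the determinants multiply to at least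
`Λ ^ (-2 n)`. -/
lemma one_le_det_mul {S T : Matrix (Fin n) (Fin n) ℝ} (hS : S.PosDef) (hT : T.PosDef) {Λ : ℝ}
    (_hΛ : 0 < Λ)
    (h : ∀ a w : Fin n → ℝ, (a ⬝ᵥ w) ^ 2 ≤ Λ ^ 2 * (a ⬝ᵥ S *ᵥ a) * (w ⬝ᵥ T *ᵥ w)) :
    1 ≤ (Λ ^ 2) ^ n * (S.det * T.det) := by
  obtain ⟨B, hB, hdet⟩ := exists_factor hS
  have hu : IsUnit B.det := isUnit_iff_ne_zero.2 hdet
  set M := B * T * Bᵀ with hM
  have hMH : M.IsHermitian := by
    simpa [hM, conjTranspose_eq_transpose_of_trivial] using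
      isHermitian_mul_mul_conjTranspose B hT.isHermitian
  have hev : ∀ i, 1 ≤ Λ ^ 2 * hMH.eigenvalues i := by
    intro i
    set x : Fin n → ℝ := ⇑(hMH.eigenvectorBasis i) with hx
    have hxx : x ⬝ᵥ x = 1 := by
      have := real_inner_self_eq_norm_sq (hMH.eigenvectorBasis i)
      rw [hMH.eigenvectorBasis.norm_eq_one i, one_pow, EuclideanSpace.inner_eq_star_dotProduct,
        star_trivial] at this
      exact this
    have hlam : hMH.eigenvalues i = x ⬝ᵥ M *ᵥ x := by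
      rw [hMH.eigenvalues_eq]; simp [hx]
    have h' := h (B⁻¹ *ᵥ x) (Bᵀ *ᵥ x)
    have e1 : (B⁻¹ *ᵥ x) ⬝ᵥ (Bᵀ *ᵥ x) = 1 := by
      rw [dotProduct_mulVec, vecMul_transpose, mulVec_mulVec, mul_nonsing_inv _ hu, one_mulVec,
        hxx]
    have e2 : (B⁻¹ *ᵥ x) ⬝ᵥ S *ᵥ (B⁻¹ *ᵥ x) = 1 := by
      rw [hB, quad_factor, mulVec_mulVec, mul_nonsing_inv _ hu, one_mulVec, hxx]
    have e3 : (Bᵀ *ᵥ x) ⬝ᵥ T *ᵥ (Bᵀ *ᵥ x) = x ⬝ᵥ M *ᵥ x := by
      rw [hM, ← mulVec_mulVec, ← mulVec_mulVec, dotProduct_mulVec x B,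
        ← mulVec_transpose]
    rw [e1, e2, e3, ← hlam] at h'
    linarith
  have hMdet : M.det = S.det * T.det := by
    rw [hM, hB, det_mul, det_mul, det_mul, det_transpose]; ring
  rw [← hMdet, hMH.det_eq_prod_eigenvalues]
  calc (1 : ℝ) ≤ ∏ i, Λ ^ 2 * hMH.eigenvalues i := Finset.one_le_prod fun i _ => hev i
    _ = _ := by simp [Finset.prod_mul_distrib]

/-- In a body containing the origin every linear form is at most `2 (n + 1)` standard deviations. -/
lemma abs_dot_le_sigma {K : Set (Fin n → ℝ)} (hK : IsBody K) (l : Fin n → ℝ) {r : ℝ} (hr : 0 ≤ r)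
    (h : l ⬝ᵥ covMatrix K *ᵥ l ≤ r ^ 2) :
    |l ⬝ᵥ bodyCentroid K| ≤ ((n : ℝ) + 1) * r ∧
      ∀ x ∈ K, |l ⬝ᵥ x| ≤ 2 * ((n : ℝ) + 1) * r := by
  have h0 : 0 ≤ l ⬝ᵥ covMatrix K *ᵥ l := by
    simpa using hK.covMatrix_posDef.posSemidef.dotProduct_mulVec_nonneg l
  have hd : ∀ x ∈ K, |l ⬝ᵥ (x - bodyCentroid K)| ≤ ((n : ℝ) + 1) * r := fun x hx => by
    refine abs_le_of_sq_le_sq ?_ (by positivity)
    have := sq_le_quadForm hK hx l
    rw [Fintype.card_fin] at this
    refine this.trans ?_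
    calc (n : ℝ) * ((n : ℝ) + 2) * (l ⬝ᵥ covMatrix K *ᵥ l)
        ≤ ((n : ℝ) + 1) ^ 2 * r ^ 2 := mul_le_mul (by nlinarith) h h0 (by positivity)
      _ = _ := by ring
  have hb : |l ⬝ᵥ bodyCentroid K| ≤ ((n : ℝ) + 1) * r := by
    simpa [dotProduct_sub] using hd 0 hK.zero_mem
  refine ⟨hb, fun x hx => ?_⟩
  have := hd x hx
  rw [dotProduct_sub] at this
  rw [abs_le] at this hb ⊢
  constructor <;> linarith

/-- A crude lower bound for the volume product from a bound on the isotropic constant. -/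
lemma exists_crude {D : ℝ} (hD : 0 < D)
    (h : ∀ K : Set (Fin n → ℝ), IsBody K → (covMatrix K).det ≤ D * volume.real K ^ 2) :
    ∃ c : ℝ, 0 < c ∧ ∀ K : Set (Fin n → ℝ), IsBody K → (0 : Fin n → ℝ) ∈ interior K →
      c ≤ volume.real K * volume.real (polarBody K) := by
  set r : ℝ := 1 / (2 * ((n : ℝ) + 1))
  have hr : 0 < r := by positivity
  set U : Set (Fin n → ℝ) := {y | y ⬝ᵥ y ≤ r ^ 2}
  have hUc : Continuous fun y : Fin n → ℝ => y ⬝ᵥ y := by simp only [dotProduct]; fun_prop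
  have hUsub : U ⊆ Metric.closedBall 0 r := fun y hy => by
    rw [mem_closedBall_zero_iff, pi_norm_le_iff_of_nonneg hr.le]
    intro i
    refine abs_le_of_sq_le_sq ((le_trans ?_ hy)) hr.le
    exact (le_of_eq (sq _)).trans (Finset.single_le_sum
      (f := fun j => y j * y j) (fun j _ => mul_self_nonneg _) (Finset.mem_univ i))
  have hUpos : 0 < volume.real U := by
    refine ENNReal.toReal_pos ?_ ((measure_mono hUsub).trans_lt
      (isCompact_closedBall (0 : Fin n → ℝ) r).measure_lt_top).ne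
    exact (lt_of_lt_of_le ((isOpen_lt hUc continuous_const).measure_pos volume
      ⟨0, by simpa using pow_pos hr 2⟩) (measure_mono fun y (hy : y ⬝ᵥ y < r ^ 2) => hy.le)).ne'
  refine ⟨volume.real U / Real.sqrt D, by positivity, fun K hK h0 => ?_⟩
  have hV := hK.volume_pos
  obtain ⟨B, hB, hdet⟩ := exists_factor hK.covMatrix_posDef
  have hsub : (Matrix.toLin' B) ⁻¹' U ⊆ polarBody K := fun y hy => mem_polar.2 fun x hx => by
    have hy' : y ⬝ᵥ covMatrix K *ᵥ y ≤ r ^ 2 := by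
      rw [hB, quad_factor]; simpa [U] using hy
    refine (le_abs_self _).trans (((abs_dot_le_sigma hK y hr.le hy').2 x hx).trans (le_of_eq ?_))
    simp only [r]; field_simp
  have hvol : volume.real ((Matrix.toLin' B) ⁻¹' U) = |B.det|⁻¹ * volume.real U := by
    rw [Measure.real, Measure.addHaar_preimage_linearMap volume (by rwa [LinearMap.det_toLin']),
      LinearMap.det_toLin', ENNReal.toReal_mul, ENNReal.toReal_ofReal (abs_nonneg _), abs_inv]
    rfl
  have hle : |B.det|⁻¹ * volume.real U ≤ volume.real (polarBody K) := hvol ▸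
    measureReal_mono hsub (isBody_polar hK h0).1.compact.measure_lt_top.ne
  have hdetle : |B.det| ≤ Real.sqrt D * volume.real K := by
    refine abs_le_of_sq_le_sq ?_ (by positivity)
    rw [mul_pow, Real.sq_sqrt hD.le]
    have := h K hK
    rw [hB, det_mul, det_transpose] at this
    linarith [sq B.det]
  rw [div_le_iff₀ (Real.sqrt_pos.2 hD)]
  rw [inv_mul_le_iff₀ (abs_pos.2 hdet)] at hle
  calc volume.real U ≤ |B.det| * volume.real (polarBody K) := hle
    _ ≤ Real.sqrt D * volume.real K * volume.real (polarBody K) :=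
        mul_le_mul_of_nonneg_right hdetle measureReal_nonneg
    _ = _ := by ring

end Vale.Agent.P254.Mahler
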