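import Vale.Agent.P254.Mahler.MatIneq

/-!
Second variation of the volume product at an almost minimal body: a lower bound for the volume
product from an upper bound on the isotropic constant.
-/

open MeasureTheory Set Matrix
open scoped Pointwise

namespace Vale.Agent.P254.Mahler

open Vale.Agent.P248 (polarBody)

variable {n : ℕ}

/-- Second order expansion of a negative power of `1 - u`. -/
lemma exists_expand (N : ℕ) : ∃ C : ℝ, 0 ≤ C ∧ ∀ u : ℝ, |u| ≤ 1 / 2 →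
    |((1 - u) ^ N)⁻¹ - (1 + (N : ℝ) * u + (N : ℝ) * ((N : ℝ) + 1) / 2 * u ^ 2)| ≤ C * |u| ^ 3 := by
  induction N with
  | zero => exact ⟨0, le_rfl, fun u _ => by simp⟩
  | succ N ih =>
    obtain ⟨C, hC, h⟩ := ih
    refine ⟨2 * (C + ((N : ℝ) + 1) * ((N : ℝ) + 2) / 2), by positivity, fun u hu => ?_⟩
    have hpos : 0 < 1 - u := by linarith [(abs_le.1 hu).2]
    have hinv : (1 - u)⁻¹ ≤ 2 := inv_le_of_inv_le₀ two_pos (by linarith [(abs_le.1 hu).2])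
    have e : ((1 - u) ^ (N + 1))⁻¹ -
          (1 + ((N + 1 : ℕ) : ℝ) * u +
            ((N + 1 : ℕ) : ℝ) * (((N + 1 : ℕ) : ℝ) + 1) / 2 * u ^ 2) =
        (1 - u)⁻¹ * ((((1 - u) ^ N)⁻¹ -
          (1 + (N : ℝ) * u + (N : ℝ) * ((N : ℝ) + 1) / 2 * u ^ 2)) +
          ((N : ℝ) + 1) * ((N : ℝ) + 2) / 2 * u ^ 3) := by
      push_cast
      rw [pow_succ]
      field_simp
      ring
    rw [e, abs_mul, abs_inv, abs_of_pos hpos]
    calc (1 - u)⁻¹ * |_| ≤ 2 * (C * |u| ^ 3 + ((N : ℝ) + 1) * ((N : ℝ) + 2) / 2 * |u| ^ 3) := by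
          refine mul_le_mul hinv ((abs_add_le _ _).trans (add_le_add (h u hu) ?_)) (abs_nonneg _)
            (by norm_num)
          rw [abs_mul, abs_pow, abs_of_nonneg (by positivity :
            (0 : ℝ) ≤ ((N : ℝ) + 1) * ((N : ℝ) + 2) / 2)]
      _ = _ := by ring

/-- The second order average of a negative power of an affine function over a body. -/
lemma avg_le {N : ℕ} {C : ℝ} (hC : 0 ≤ C)
    (hexp : ∀ u : ℝ, |u| ≤ 1 / 2 →
      |((1 - u) ^ N)⁻¹ - (1 + (N : ℝ) * u + (N : ℝ) * ((N : ℝ) + 1) / 2 * u ^ 2)| ≤ C * |u| ^ 3)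
    {K : Set (Fin n → ℝ)} (hK : IsBody K) (l : Fin n → ℝ) (d : ℝ) {M : ℝ} (hM : M ≤ 1 / 2)
    (h : ∀ x ∈ K, |l ⬝ᵥ x + d| ≤ M) :
    ∫ x in K, ((1 - (l ⬝ᵥ x + d)) ^ N)⁻¹ ≤
      volume.real K * (1 + (N : ℝ) * (l ⬝ᵥ bodyCentroid K + d) + (N : ℝ) * ((N : ℝ) + 1) / 2 *
        (l ⬝ᵥ covMatrix K *ᵥ l + (l ⬝ᵥ bodyCentroid K + d) ^ 2) + C * M ^ 3) := by
  set μ := l ⬝ᵥ bodyCentroid K + d with hμ
  set k := (N : ℝ) * ((N : ℝ) + 1) / 2 with hk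
  set g : (Fin n → ℝ) → ℝ := fun x => l ⬝ᵥ (x - bodyCentroid K) with hg
  have hgc : Continuous g := by simp only [g, dotProduct]; fun_prop
  have hu : ∀ x, l ⬝ᵥ x + d = g x + μ := fun x => by simp [g, hμ, dotProduct_sub]; ring
  have hcont : ContinuousOn (fun x : Fin n → ℝ => ((1 - (g x + μ)) ^ N)⁻¹) K := by
    refine ContinuousOn.inv₀ (by fun_prop) fun x hx => pow_ne_zero _ (ne_of_gt ?_)
    have := (abs_le.1 ((hu x) ▸ h x hx)).2
    linarith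
  simp only [hu]
  calc ∫ x in K, ((1 - (g x + μ)) ^ N)⁻¹
      ≤ ∫ x in K, (((N : ℝ) + 2 * k * μ) * g x + k * g x ^ 2 +
          (1 + (N : ℝ) * μ + k * μ ^ 2 + C * M ^ 3)) := by
        refine setIntegral_mono_on (hcont.integrableOn_compact hK.compact)
          (integrableOn_of_continuous hK.compact (by fun_prop)) hK.compact.measurableSet
          fun x hx => ?_
        have h1 := (hu x) ▸ h x hx
        have h2 := (abs_le.1 (hexp _ (h1.trans hM))).2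
        have h3 : C * |g x + μ| ^ 3 ≤ C * M ^ 3 :=
          mul_le_mul_of_nonneg_left (pow_le_pow_left₀ (abs_nonneg _) h1 3) hC
        linear_combination h2 + h3
    _ = _ := by
        have i1 : IntegrableOn (fun x => ((N : ℝ) + 2 * k * μ) * g x) K :=
          integrableOn_of_continuous hK.compact (by fun_prop)
        have i2 : IntegrableOn (fun x => k * g x ^ 2) K :=
          integrableOn_of_continuous hK.compact (by fun_prop)
        have i4 : IntegrableOn (fun x => ((N : ℝ) + 2 * k * μ) * g x + k * g x ^ 2) K := i1.add i2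
        rw [integral_add i4 (integrableOn_of_continuous hK.compact continuous_const),
          integral_add i1 i2, integral_const_mul, integral_const_mul, setIntegral_const, smul_eq_mul]
        simp only [g]
        rw [integral_dotProduct_centred hK l, ← quadForm_eq hK l]
        ring

lemma integral_one_sub_pow_nonneg {K : Set (Fin n → ℝ)} (hK : IsBody K) (N : ℕ) (l : Fin n → ℝ)
    (d : ℝ) (h : ∀ x ∈ K, |l ⬝ᵥ x + d| ≤ 1 / 2) :
    0 ≤ ∫ x in K, ((1 - (l ⬝ᵥ x + d)) ^ N)⁻¹ :=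
  setIntegral_nonneg hK.compact.measurableSet fun x hx => by
    have := (abs_le.1 (h x hx)).2
    exact inv_nonneg.2 (pow_nonneg (by linarith) _)

/-- The two factors of the perturbed volume product. -/
noncomputable def factor (n : ℕ) (K : Set (Fin n → ℝ)) (l : Fin n → ℝ) (d : ℝ) : ℝ :=
  ∫ x in K, ((1 - (l ⬝ᵥ x + d)) ^ (n + 1))⁻¹

/-- Almost minimality of the pair `K`, `Q` under the two-parameter perturbation. -/
def AlmostMin (ε : ℝ) (K Q : Set (Fin n → ℝ)) : Prop :=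
  ∀ a w : Fin n → ℝ, (∀ x ∈ K, |a ⬝ᵥ x| ≤ 1 / 2) → (∀ q ∈ Q, |w ⬝ᵥ q - w ⬝ᵥ a| ≤ 1 / 2) →
    (1 - ε) * (volume.real K * volume.real Q) ≤ factor n K a 0 * factor n Q w (-(w ⬝ᵥ a))

lemma factor_zero (K : Set (Fin n → ℝ)) : factor n K 0 0 = volume.real K := by
  simp [factor, setIntegral_const]

/-- First order condition: the centroid is almost at the origin. -/
lemma centroid_small {C : ℝ} (hC : 0 ≤ C)
    (hexp : ∀ u : ℝ, |u| ≤ 1 / 2 → |((1 - u) ^ (n + 1))⁻¹ - (1 + ((n + 1 : ℕ) : ℝ) * u +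
      ((n + 1 : ℕ) : ℝ) * (((n + 1 : ℕ) : ℝ) + 1) / 2 * u ^ 2)| ≤ C * |u| ^ 3)
    {m : ℝ} (hm : m = (n : ℝ) + 1) {k : ℝ} (hk : k = m * (m + 1) / 2)
    {δ ε : ℝ} (hδ0 : 0 < δ) (hδ1 : δ ≤ 1) (hκδ : 2 * m * δ ^ 2 ≤ 1 / 2) (hε : ε ≤ δ ^ 4)
    {L : Set (Fin n → ℝ)} (hL : IsBody L)
    (hl : ∀ a : Fin n → ℝ, (∀ x ∈ L, |a ⬝ᵥ x| ≤ 1 / 2) →
      (1 - ε) * volume.real L ≤ factor n L a 0)
    (a : Fin n → ℝ) (ha : a ⬝ᵥ covMatrix L *ᵥ a = 1) :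
    |a ⬝ᵥ bodyCentroid L| ≤ (1 + k * (1 + m ^ 2) + C * (2 * m) ^ 3) * δ ^ 2 := by
  have hm1 : 1 ≤ m := by simp [hm]
  have hm0 : 0 ≤ m := by linarith
  have hk0 : 0 ≤ k := by rw [hk]; positivity
  suffices key : ∀ a : Fin n → ℝ, a ⬝ᵥ covMatrix L *ᵥ a = 1 →
      -(a ⬝ᵥ bodyCentroid L) ≤ (1 + k * (1 + m ^ 2) + C * (2 * m) ^ 3) * δ ^ 2 by
    refine abs_le.2 ⟨by linarith [key a ha], ?_⟩
    have := key (-a) (by simpa [mulVec_neg] using ha)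
    simpa using this
  intro a ha
  have hs : (δ ^ 2 • a) ⬝ᵥ covMatrix L *ᵥ (δ ^ 2 • a) = (δ ^ 2) ^ 2 := by
    simp [mulVec_smul, ha]; ring
  obtain ⟨hb, hx⟩ := abs_dot_le_sigma hL (δ ^ 2 • a) (by positivity) hs.le
  rw [← hm] at hb hx
  have hx' : ∀ x ∈ L, |(δ ^ 2 • a) ⬝ᵥ x + 0| ≤ 2 * m * δ ^ 2 := fun x hxL => by
    simpa using hx x hxL
  have h1 := hl (δ ^ 2 • a) fun x hxL => by simpa using (hx' x hxL).trans hκδ
  have h2 := h1.trans (avg_le hC hexp hL _ 0 hκδ hx')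
  rw [mul_comm, mul_le_mul_iff_right₀ hL.volume_pos, hs, show ((n + 1 : ℕ) : ℝ) = m by
    rw [hm]; push_cast; rfl, ← hk] at h2
  set z := a ⬝ᵥ bodyCentroid L
  have hμ : (δ ^ 2 • a) ⬝ᵥ bodyCentroid L = δ ^ 2 * z := by simp [z]
  rw [hμ] at hb
  rw [hμ, add_zero] at h2
  have hμ2 : k * (δ ^ 2 * z) ^ 2 ≤ k * (m ^ 2 * δ ^ 4) := by
    refine mul_le_mul_of_nonneg_left ?_ hk0
    rw [← sq_abs]
    exact (pow_le_pow_left₀ (abs_nonneg _) hb 2).trans (le_of_eq (by ring))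
  have h6 : C * (2 * m * δ ^ 2) ^ 3 ≤ C * (2 * m) ^ 3 * δ ^ 4 := by
    calc C * (2 * m * δ ^ 2) ^ 3 = C * (2 * m) ^ 3 * δ ^ 6 := by ring
      _ ≤ _ := mul_le_mul_of_nonneg_left
          (pow_le_pow_of_le_one hδ0.le hδ1 (by norm_num)) (by positivity)
  have h7 : m * -z * δ ^ 2 ≤ (1 + k * (1 + m ^ 2) + C * (2 * m) ^ 3) * δ ^ 2 * δ ^ 2 := by
    linear_combination h2 + hμ2 + h6 + hε
  have h8 := le_of_mul_le_mul_right h7 (pow_pos hδ0 2)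
  rcases le_or_gt (-z) 0 with h9 | h9
  · exact h9.trans (by positivity)
  · exact le_trans (le_mul_of_one_le_left h9.le hm1) h8

/-- The arithmetic of the second order condition. -/
lemma second_order_arith {m k E₀ δ t G ε X Y : ℝ} (hm : 0 ≤ m) (hk : 0 ≤ k) (hE : 0 ≤ E₀)
    (hδ0 : 0 < δ) (hδ1 : δ ≤ 1) (ht0 : 0 < t) (htδ : t ≤ δ) (hG : 0 ≤ G)
    (ht2 : t ^ 2 * (1 + G) = δ ^ 2) (hε : ε ≤ δ ^ 4)
    (hX : X = k * t ^ 2 + E₀ * δ ^ 3) (hY : Y = -(m * (t ^ 2 * G)) + k * t ^ 2 + E₀ * δ ^ 3)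
    (h : 1 - ε ≤ (1 + X) * (1 + Y)) :
    m * G ≤ 2 * k + (2 * E₀ + (m + k + E₀) ^ 2 + 1) * δ * (1 + G) := by
  have hd32 : δ ^ 3 ≤ δ ^ 2 := pow_le_pow_of_le_one hδ0.le hδ1 (by norm_num)
  have hd43 : δ ^ 4 ≤ δ ^ 3 := pow_le_pow_of_le_one hδ0.le hδ1 (by norm_num)
  have hγ0 : 0 ≤ t ^ 2 * G := by positivity
  have hγ : t ^ 2 * G ≤ δ ^ 2 := by linear_combination ht2 + sq_nonneg t
  have h2 : k * t ^ 2 ≤ k * δ ^ 2 :=
    mul_le_mul_of_nonneg_left (pow_le_pow_left₀ ht0.le htδ 2) hk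
  have h3 := mul_le_mul_of_nonneg_left hd32 hE
  have h4 := mul_le_mul_of_nonneg_left hγ hm
  have h5 : 0 ≤ k * t ^ 2 := by positivity
  have h6 : 0 ≤ E₀ * δ ^ 3 := by positivity
  have h7 : 0 ≤ m * (t ^ 2 * G) := by positivity
  have h8 : 0 ≤ m * δ ^ 2 := by positivity
  have hX0 : 0 ≤ X := by rw [hX]; linarith
  have hXd : X ≤ (m + k + E₀) * δ ^ 2 := by rw [hX]; linarith
  have hYd : |Y| ≤ (m + k + E₀) * δ ^ 2 := by
    rw [hY, abs_le]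
    constructor <;> linarith
  have hXY : X * Y ≤ (m + k + E₀) ^ 2 * δ ^ 3 := by
    calc X * Y ≤ X * |Y| := mul_le_mul_of_nonneg_left (le_abs_self _) hX0
      _ ≤ ((m + k + E₀) * δ ^ 2) * ((m + k + E₀) * δ ^ 2) :=
          mul_le_mul hXd hYd (abs_nonneg _) (by positivity)
      _ = (m + k + E₀) ^ 2 * δ ^ 4 := by ring
      _ ≤ _ := mul_le_mul_of_nonneg_left hd43 (by positivity)
  have h9 : 0 ≤ t ^ 2 * (2 * k - m * G) +
      (2 * E₀ + (m + k + E₀) ^ 2 + 1) * δ * (t ^ 2 * (1 + G)) := by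
    rw [ht2]
    subst hX hY
    linear_combination h + hXY + hε + hd43
  have h10 : 0 ≤ t ^ 2 * (2 * k - m * G + (2 * E₀ + (m + k + E₀) ^ 2 + 1) * δ * (1 + G)) := by
    linear_combination h9
  have := (mul_nonneg_iff_of_pos_left (pow_pos ht0 2)).1 h10
  linarith

/-- Second order condition in the normalised directions. -/
lemma second_order {C : ℝ} (hC : 0 ≤ C)
    (hexp : ∀ u : ℝ, |u| ≤ 1 / 2 → |((1 - u) ^ (n + 1))⁻¹ - (1 + ((n + 1 : ℕ) : ℝ) * u +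
      ((n + 1 : ℕ) : ℝ) * (((n + 1 : ℕ) : ℝ) + 1) / 2 * u ^ 2)| ≤ C * |u| ^ 3)
    {m : ℝ} (hm : m = (n : ℝ) + 1) {k : ℝ} (hk : k = m * (m + 1) / 2)
    {C₁ : ℝ} (hC₁ : 0 ≤ C₁)
    {δ ε : ℝ} (hδ0 : 0 < δ) (hδ1 : δ ≤ 1) (hδκ : (2 * m + 1) * δ ≤ 1 / 2) (hε : ε ≤ δ ^ 4)
    {K Q : Set (Fin n → ℝ)} (hK : IsBody K) (hQ : IsBody Q) (hmin : AlmostMin ε K Q)
    {a w : Fin n → ℝ} (ha : a ⬝ᵥ covMatrix K *ᵥ a = 1) (hw : w ⬝ᵥ covMatrix Q *ᵥ w = 1)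
    (hca : |a ⬝ᵥ bodyCentroid K| ≤ C₁ * δ ^ 2) (hcw : |w ⬝ᵥ bodyCentroid Q| ≤ C₁ * δ ^ 2)
    {E₀ : ℝ} (hE₀ : E₀ = m * C₁ + k * (C₁ + 1) ^ 2 + C * (2 * m + 1) ^ 3)
    (hG : 0 ≤ a ⬝ᵥ w) :
    m * (a ⬝ᵥ w) ≤
      2 * k + (2 * E₀ + (m + k + E₀) ^ 2 + 1) * δ * (1 + a ⬝ᵥ w) := by
  have hm0 : 0 ≤ m := by rw [hm]; positivity
  have hk0 : 0 ≤ k := by rw [hk]; positivity
  have hVK := hK.volume_pos
  have hVQ := hQ.volume_pos
  have hmc : ((n + 1 : ℕ) : ℝ) = m := by rw [hm]; push_cast; rfl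
  set G := a ⬝ᵥ w with hGdef
  have hsq : 0 < Real.sqrt (1 + G) := Real.sqrt_pos.2 (by linarith)
  obtain ⟨t, ht0, htδ, ht2⟩ : ∃ t, 0 < t ∧ t ≤ δ ∧ t ^ 2 * (1 + G) = δ ^ 2 := by
    refine ⟨δ / Real.sqrt (1 + G), div_pos hδ0 hsq,
      div_le_self hδ0.le (Real.one_le_sqrt.2 (by linarith)), ?_⟩
    rw [div_pow, Real.sq_sqrt (by linarith)]; field_simp
  have hγ0 : 0 ≤ t ^ 2 * G := by positivity
  have hγ : t ^ 2 * G ≤ δ ^ 2 := by linear_combination ht2 + sq_nonneg t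
  have hd2 : δ ^ 2 ≤ δ := by nlinarith
  have hsK : (t • a) ⬝ᵥ covMatrix K *ᵥ (t • a) = t ^ 2 := by simp [mulVec_smul, ha]; ring
  have hsQ : (t • w) ⬝ᵥ covMatrix Q *ᵥ (t • w) = t ^ 2 := by simp [mulVec_smul, hw]; ring
  have hγeq : (t • w) ⬝ᵥ (t • a) = t ^ 2 * G := by
    simp [hGdef, dotProduct_comm w a]; ring
  obtain ⟨-, hxK⟩ := abs_dot_le_sigma hK (t • a) ht0.le hsK.le
  obtain ⟨-, hxQ⟩ := abs_dot_le_sigma hQ (t • w) ht0.le hsQ.le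
  rw [← hm] at hxK hxQ
  have hκt : 2 * m * t ≤ 2 * m * δ := mul_le_mul_of_nonneg_left htδ (by positivity)
  have hMK : ∀ x ∈ K, |(t • a) ⬝ᵥ x + 0| ≤ (2 * m + 1) * δ := fun x hx => by
    rw [add_zero]
    linarith [hxK x hx]
  have hMQ : ∀ q ∈ Q, |(t • w) ⬝ᵥ q + -((t • w) ⬝ᵥ (t • a))| ≤ (2 * m + 1) * δ := fun q hq => by
    refine (abs_add_le _ _).trans ?_
    rw [abs_neg, hγeq, abs_of_nonneg hγ0]
    linarith [hxQ q hq]
  have h1 := hmin (t • a) (t • w) (fun x hx => by simpa using (hMK x hx).trans hδκ)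
    (fun q hq => by simpa [sub_eq_add_neg] using (hMQ q hq).trans hδκ)
  have hA := avg_le hC hexp hK _ 0 hδκ hMK
  have hB := avg_le hC hexp hQ _ _ hδκ hMQ
  rw [hmc, hsK, ← hk] at hA
  rw [hmc, hsQ, ← hk] at hB
  have hB0 := integral_one_sub_pow_nonneg hQ (n + 1) _ _ fun q hq => (hMQ q hq).trans hδκ
  set α := (t • a) ⬝ᵥ bodyCentroid K + 0 with hα
  set β := (t • w) ⬝ᵥ bodyCentroid Q + -((t • w) ⬝ᵥ (t • a)) with hβ
  have hsmall : ∀ {L : Set (Fin n → ℝ)} {v : Fin n → ℝ},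
      |v ⬝ᵥ bodyCentroid L| ≤ C₁ * δ ^ 2 →
      |(t • v) ⬝ᵥ bodyCentroid L| ≤ C₁ * δ ^ 3 := by
    intro L v hv
    rw [smul_dotProduct, smul_eq_mul, abs_mul, abs_of_pos ht0]
    calc t * |v ⬝ᵥ bodyCentroid L| ≤ δ * (C₁ * δ ^ 2) :=
          mul_le_mul htδ hv (abs_nonneg _) hδ0.le
      _ = _ := by ring
  have hα1 : |α| ≤ C₁ * δ ^ 3 := by simpa [hα] using hsmall hca
  have hβb := hsmall (L := Q) hcw
  have hβ1 : β ≤ C₁ * δ ^ 3 - t ^ 2 * G := by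
    rw [hβ, hγeq]; linarith [(abs_le.1 hβb).2]
  have hd32 : δ ^ 3 ≤ δ ^ 2 := pow_le_pow_of_le_one hδ0.le hδ1 (by norm_num)
  have hd63 : δ ^ 6 ≤ δ ^ 3 := pow_le_pow_of_le_one hδ0.le hδ1 (by norm_num)
  have hd43 : δ ^ 4 ≤ δ ^ 3 := pow_le_pow_of_le_one hδ0.le hδ1 (by norm_num)
  have hα2 : α ^ 2 ≤ (C₁ + 1) ^ 2 * δ ^ 3 := by
    rw [← sq_abs]
    calc |α| ^ 2 ≤ (C₁ * δ ^ 3) ^ 2 := pow_le_pow_left₀ (abs_nonneg _) hα1 2
      _ = C₁ ^ 2 * δ ^ 6 := by ring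
      _ ≤ _ := mul_le_mul (pow_le_pow_left₀ hC₁ (by linarith) 2) hd63 (by positivity) (by positivity)
  have hβ2 : β ^ 2 ≤ (C₁ + 1) ^ 2 * δ ^ 3 := by
    rw [← sq_abs]
    calc |β| ^ 2 ≤ ((C₁ + 1) * δ ^ 2) ^ 2 := by
          refine pow_le_pow_left₀ (abs_nonneg _) ((abs_add_le _ _).trans ?_) 2
          rw [abs_neg, hγeq, abs_of_nonneg hγ0]
          linarith [mul_le_mul_of_nonneg_left hd32 hC₁]
      _ = (C₁ + 1) ^ 2 * δ ^ 4 := by ring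
      _ ≤ _ := mul_le_mul_of_nonneg_left hd43 (by positivity)
  have hAX : factor n K (t • a) 0 ≤
      volume.real K * (1 + (k * t ^ 2 + E₀ * δ ^ 3)) := by
    refine hA.trans (mul_le_mul_of_nonneg_left ?_ hVK.le)
    have := mul_le_mul_of_nonneg_left hα2 hk0
    have := mul_le_mul_of_nonneg_left (abs_le.1 hα1).2 hm0
    subst hE₀
    linarith
  have hBY : factor n Q (t • w) (-((t • w) ⬝ᵥ (t • a))) ≤
      volume.real Q * (1 + (-(m * (t ^ 2 * G)) + k * t ^ 2 + E₀ * δ ^ 3)) := by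
    refine hB.trans (mul_le_mul_of_nonneg_left ?_ hVQ.le)
    have := mul_le_mul_of_nonneg_left hβ2 hk0
    have := mul_le_mul_of_nonneg_left hβ1 hm0
    subst hE₀
    linarith
  have hE0 : 0 ≤ E₀ := by rw [hE₀]; positivity
  refine second_order_arith hm0 hk0 hE0 hδ0 hδ1 ht0 htδ hG ht2 hε rfl rfl ?_
  refine le_of_mul_le_mul_right ?_ (mul_pos hVK hVQ)
  exact h1.trans ((mul_le_mul hAX hBY hB0 (by positivity)).trans (le_of_eq (by ring)))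

lemma pairing_le {Λ : ℝ} (hΛ : (n : ℝ) + 2 < Λ) :
    ∃ ε₀ : ℝ, 0 < ε₀ ∧ ∀ ε ≤ ε₀, ∀ K Q : Set (Fin n → ℝ), IsBody K → IsBody Q →
      AlmostMin ε K Q → ∀ a w : Fin n → ℝ,
        (a ⬝ᵥ w) ^ 2 ≤ Λ ^ 2 * (a ⬝ᵥ covMatrix K *ᵥ a) * (w ⬝ᵥ covMatrix Q *ᵥ w) := by
  obtain ⟨C, hC, hexp⟩ := exists_expand (n + 1)
  obtain ⟨m, hm⟩ : ∃ m : ℝ, m = (n : ℝ) + 1 := ⟨_, rfl⟩
  obtain ⟨k, hk⟩ : ∃ k : ℝ, k = m * (m + 1) / 2 := ⟨_, rfl⟩
  obtain ⟨C₁, hC₁⟩ : ∃ c : ℝ, c = 1 + k * (1 + m ^ 2) + C * (2 * m) ^ 3 := ⟨_, rfl⟩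
  obtain ⟨E₀, hE₀⟩ : ∃ e : ℝ, e = m * C₁ + k * (C₁ + 1) ^ 2 + C * (2 * m + 1) ^ 3 := ⟨_, rfl⟩
  obtain ⟨H, hH⟩ : ∃ H : ℝ, H = 2 * E₀ + (m + k + E₀) ^ 2 + 1 := ⟨_, rfl⟩
  have hm0 : 0 < m := by rw [hm]; positivity
  have hk0 : 0 ≤ k := by rw [hk]; positivity
  have hC₁0 : 0 ≤ C₁ := by rw [hC₁]; positivity
  have hE0 : 0 ≤ E₀ := by rw [hE₀]; positivity
  have hHpos : 0 < H := by rw [hH]; positivity
  have hgap : 0 < m * (Λ - ((n : ℝ) + 2)) := mul_pos hm0 (by linarith)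
  have hΛ0 : 0 < Λ := lt_of_le_of_lt (by positivity) hΛ
  obtain ⟨δ, hδ0, hδ1, hδκ, hδH⟩ : ∃ δ : ℝ, 0 < δ ∧ δ ≤ 1 ∧ (2 * m + 1) * δ ≤ 1 / 2 ∧
      δ * (H * (1 + Λ)) ≤ m * (Λ - ((n : ℝ) + 2)) := by
    refine ⟨min (min 1 (1 / (2 * (2 * m + 1)))) (m * (Λ - ((n : ℝ) + 2)) / (H * (1 + Λ))),
      lt_min (lt_min one_pos (by positivity)) (by positivity),
      (min_le_left _ _).trans (min_le_left _ _), ?_,
      (le_div_iff₀ (by positivity)).1 (min_le_right _ _)⟩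
    have h := (min_le_left (min 1 (1 / (2 * (2 * m + 1))))
      (m * (Λ - ((n : ℝ) + 2)) / (H * (1 + Λ)))).trans (min_le_right _ _)
    rw [le_div_iff₀ (by positivity)] at h
    linarith
  refine ⟨δ ^ 4, by positivity, fun ε hε K Q hK hQ hmin => ?_⟩
  have hVK := hK.volume_pos
  have hVQ := hQ.volume_pos
  have hκδ : 2 * m * δ ^ 2 ≤ 1 / 2 := by
    have : δ ^ 2 ≤ δ := by nlinarith
    linarith [mul_le_mul_of_nonneg_left this hm0.le]
  have firstK := centroid_small hC hexp hm hk hδ0 hδ1 hκδ hε hK fun a ha => by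
    have := hmin a 0 ha (fun q _ => by simp)
    simp only [zero_dotProduct, neg_zero, factor_zero, ← mul_assoc] at this
    exact le_of_mul_le_mul_right this hVQ
  have firstQ := centroid_small hC hexp hm hk hδ0 hδ1 hκδ hε hQ fun w hw => by
    have := hmin 0 w (fun x _ => by simp) (fun q hq => by simpa using hw q hq)
    simp only [dotProduct_zero, neg_zero, factor_zero] at this
    rw [mul_left_comm] at this
    exact le_of_mul_le_mul_left this hVK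
  rw [← hC₁] at firstK firstQ
  have main : ∀ a w : Fin n → ℝ, a ⬝ᵥ covMatrix K *ᵥ a = 1 → w ⬝ᵥ covMatrix Q *ᵥ w = 1 →
      a ⬝ᵥ w ≤ Λ := by
    intro a w ha hw
    by_contra! hG
    have h5 := second_order hC hexp hm hk hC₁0 hδ0 hδ1 hδκ hε hK hQ hmin ha hw
      (firstK a ha) (firstQ w hw) hE₀ (hΛ0.le.trans hG.le)
    rw [← hH] at h5
    have h2k : 2 * k = m * ((n : ℝ) + 2) := by rw [hk, hm]; ring
    rw [h2k] at h5
    have h8 : H * δ < m := by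
      by_contra! h9
      linarith [mul_le_mul_of_nonneg_right h9 (by linarith : (0 : ℝ) ≤ 1 + Λ),
        mul_nonneg hm0.le n.cast_nonneg]
    linarith [mul_lt_mul_of_pos_right hG (sub_pos.2 h8)]
  intro a w
  rcases eq_or_ne a 0 with rfl | ha
  · simp
  rcases eq_or_ne w 0 with rfl | hw
  · simp
  have hsa := hK.quadForm_pos ha
  have hsw := hQ.quadForm_pos hw
  set s := a ⬝ᵥ covMatrix K *ᵥ a with hs
  set r := w ⬝ᵥ covMatrix Q *ᵥ w with hr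
  have ea : ((Real.sqrt s)⁻¹ • a) ⬝ᵥ covMatrix K *ᵥ ((Real.sqrt s)⁻¹ • a) = 1 := by
    simp only [mulVec_smul, smul_dotProduct, dotProduct_smul, smul_eq_mul, ← hs]
    rw [← mul_assoc, ← mul_inv, Real.mul_self_sqrt hsa.le, inv_mul_cancel₀ hsa.ne']
  have ew : ((Real.sqrt r)⁻¹ • w) ⬝ᵥ covMatrix Q *ᵥ ((Real.sqrt r)⁻¹ • w) = 1 := by
    simp only [mulVec_smul, smul_dotProduct, dotProduct_smul, smul_eq_mul, ← hr]
    rw [← mul_assoc, ← mul_inv, Real.mul_self_sqrt hsw.le, inv_mul_cancel₀ hsw.ne']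
  have h1 := main _ _ ea ew
  have h2 := main _ (-((Real.sqrt r)⁻¹ • w)) ea (by simpa [mulVec_neg] using ew)
  simp only [dotProduct_neg, smul_dotProduct, dotProduct_smul, smul_eq_mul] at h1 h2
  have hp : 0 < Real.sqrt s * Real.sqrt r := by positivity
  have h3 : |a ⬝ᵥ w| ≤ Λ * (Real.sqrt s * Real.sqrt r) := by
    rw [← div_le_iff₀ hp, ← abs_of_pos hp, ← abs_div, abs_le]
    have : a ⬝ᵥ w / (Real.sqrt s * Real.sqrt r) =
        (Real.sqrt r)⁻¹ * ((Real.sqrt s)⁻¹ * (a ⬝ᵥ w)) := by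
      field_simp
    constructor <;> linarith
  calc (a ⬝ᵥ w) ^ 2 = |a ⬝ᵥ w| ^ 2 := (sq_abs _).symm
    _ ≤ (Λ * (Real.sqrt s * Real.sqrt r)) ^ 2 := pow_le_pow_left₀ (abs_nonneg _) h3 2
    _ = _ := by rw [mul_pow, mul_pow, Real.sq_sqrt hsa.le, Real.sq_sqrt hsw.le]; ring

/-- A translate of a body and the volume of its polar. -/
lemma setIntegral_vadd (K : Set (Fin n → ℝ)) (v : Fin n → ℝ) (f : (Fin n → ℝ) → ℝ) :
    ∫ y in v +ᵥ K, f y = ∫ x in K, f (v + x) :=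
  (measurePreserving_add_left volume v).setIntegral_image_emb (measurableEmbedding_addLeft v) f K

lemma mem_interior_polar {K : Set (Fin n → ℝ)} (hK : IsCompact K) {a : Fin n → ℝ}
    (h : ∀ x ∈ K, |a ⬝ᵥ x| ≤ 1 / 2) : a ∈ interior (polarBody K) := by
  obtain ⟨R, hR⟩ := isBounded_iff_forall_norm_le.1 hK.isBounded
  refine mem_interior_iff_mem_nhds.2 (Metric.mem_nhds_iff.2
    ⟨1 / (2 * ((n : ℝ) * |R| + 1)), by positivity, fun y hy x hx => ?_⟩)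
  rw [mem_ball_iff_norm, lt_div_iff₀ (by positivity)] at hy
  have h1 := abs_dot_le (y - a) x
  have h2 : (n : ℝ) * ‖y - a‖ * ‖x‖ ≤ n * ‖y - a‖ * |R| := by
    gcongr; exact (hR x hx).trans (le_abs_self R)
  rw [sub_dotProduct] at h1
  change y ⬝ᵥ x ≤ 1
  nlinarith [(abs_le.1 h1).2, (abs_le.1 (h x hx)).2, norm_nonneg (y - a)]

/-- The volume product is at least `((n + 2) ^ n D)⁻¹` if `det Σ ≤ D |K| ^ 2` for all bodies. -/
theorem volume_product_ge {D : ℝ} (hD : 0 < D)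
    (hiso : ∀ K : Set (Fin n → ℝ), IsBody K → (covMatrix K).det ≤ D * volume.real K ^ 2)
    {K : Set (Fin n → ℝ)} (hK : IsBody K) (h0 : (0 : Fin n → ℝ) ∈ interior K) :
    1 / (((n : ℝ) + 2) ^ n * D) ≤ volume.real K * volume.real (polarBody K) := by
  set S : Set ℝ := {p | ∃ L : Set (Fin n → ℝ), IsBody L ∧ (0 : Fin n → ℝ) ∈ interior L ∧
    p = volume.real L * volume.real (polarBody L)}
  obtain ⟨c, hc, hcrude⟩ := exists_crude hD hiso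
  have hbdd : ∀ p ∈ S, c ≤ p := by rintro p ⟨L, hL, hL0, rfl⟩; exact hcrude L hL hL0
  have hmem : volume.real K * volume.real (polarBody K) ∈ S := ⟨K, hK, h0, rfl⟩
  set I := sInf S with hI
  have hIc : c ≤ I := le_csInf ⟨_, hmem⟩ hbdd
  refine le_trans ?_ (csInf_le ⟨c, hbdd⟩ hmem)
  rw [← hI]
  by_contra! hlt
  rw [lt_div_iff₀ (by positivity)] at hlt
  obtain ⟨η, hη0, hη⟩ : ∃ η : ℝ, 0 < η ∧ I * (1 + η) * ((n : ℝ) + 2 + η) ^ n * D < 1 := by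
    have hcont : Continuous fun η : ℝ => I * (1 + η) * ((n : ℝ) + 2 + η) ^ n * D := by fun_prop
    have h := (hcont.tendsto 0).eventually (Iio_mem_nhds
      (show I * (1 + 0) * ((n : ℝ) + 2 + 0) ^ n * D < 1 by simpa [mul_assoc] using hlt))
    obtain ⟨η, hη, hpos⟩ := ((h.filter_mono nhdsWithin_le_nhds).and
      (self_mem_nhdsWithin : ∀ᶠ η : ℝ in nhdsWithin 0 (Ioi 0), η ∈ Ioi (0 : ℝ))).exists
    exact ⟨η, hpos, hη⟩
  obtain ⟨ε₀, hε₀, hpair⟩ := pairing_le (n := n) (Λ := (n : ℝ) + 2 + η) (by linarith)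
  set ε := min ε₀ (min η (1 / 2)) with hεdef
  have hε : 0 < ε := lt_min hε₀ (lt_min hη0 (by norm_num))
  have hε2 : ε ≤ 1 / 2 := (min_le_right _ _).trans (min_le_right _ _)
  have hεη : ε ≤ η := (min_le_right _ _).trans (min_le_left _ _)
  have hI0 : 0 < I := hc.trans_le hIc
  obtain ⟨p, ⟨L, hL, hL0, rfl⟩, hp⟩ := exists_lt_of_csInf_lt ⟨_, hmem⟩
    (show sInf S < I * (1 + ε) by rw [← hI]; nlinarith)
  obtain ⟨hQ, hQ0⟩ := isBody_polar hL hL0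
  have hnear : AlmostMin ε L (polarBody L) := by
    intro a w ha hw
    have ha' : a ∈ interior (polarBody L) := mem_interior_polar hL.compact ha
    have ha1 : ∀ x ∈ L, a ⬝ᵥ x < 1 := fun x hx => by linarith [(abs_le.1 (ha x hx)).2]
    obtain ⟨hB, hB0⟩ := isBody_vadd hQ.convex hQ.compact ha'
    obtain ⟨hP, hP0⟩ := isBody_polar hB hB0
    have hwB : ∀ y ∈ (-a) +ᵥ polarBody L, |w ⬝ᵥ y| ≤ 1 / 2 := by
      rintro _ ⟨q, hq, rfl⟩
      change |w ⬝ᵥ (-a + q)| ≤ 1 / 2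
      rw [dotProduct_add, dotProduct_neg, neg_add_eq_sub]
      exact hw q hq
    obtain ⟨hF, hF0⟩ := isBody_vadd hP.convex hP.compact (mem_interior_polar hB.compact hwB)
    have hv2 := volume_polar_vadd_polar hB hB0 (mem_interior_polar hB.compact hwB)
      fun y hy => by linarith [(abs_le.1 (hwB y hy)).2]
    have hv1 := volume_polar_vadd_polar hL hL0 ha' ha1
    have hle : I ≤ factor n L a 0 * factor n (polarBody L) w (-(w ⬝ᵥ a)) := by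
      refine csInf_le ⟨c, hbdd⟩ ⟨_, hF, hF0, ?_⟩
      have e1 : volume.real ((-w) +ᵥ polarBody ((-a) +ᵥ polarBody L)) = factor n L a 0 := by
        rw [Measure.real, measure_vadd, ← Measure.real, hv1]
        simp [factor]
      have e2 : volume.real (polarBody ((-w) +ᵥ polarBody ((-a) +ᵥ polarBody L))) =
          factor n (polarBody L) w (-(w ⬝ᵥ a)) := by
        rw [hv2, setIntegral_vadd]
        simp only [factor, dotProduct_add, dotProduct_neg, add_comm]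
      rw [e1, e2]
    refine le_trans ?_ hle
    calc (1 - ε) * (volume.real L * volume.real (polarBody L)) ≤ (1 - ε) * (I * (1 + ε)) :=
          mul_le_mul_of_nonneg_left hp.le (by linarith)
      _ = I * (1 - ε ^ 2) := by ring
      _ ≤ I := mul_le_of_le_one_right hI0.le (by nlinarith)
  have hdet := one_le_det_mul hL.covMatrix_posDef hQ.covMatrix_posDef
    (show (0 : ℝ) < (n : ℝ) + 2 + η by positivity) (hpair ε (min_le_left _ _) L _ hL hQ hnear)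
  have hprod := mul_le_mul (hiso L hL) (hiso _ hQ) hQ.covMatrix_posDef.det_pos.le (by positivity)
  set P := volume.real L * volume.real (polarBody L) with hPdef
  have hP0 : 0 < P := mul_pos hL.volume_pos hQ.volume_pos
  have hsq : (1 : ℝ) ≤ (((n : ℝ) + 2 + η) ^ n * D * P) ^ 2 :=
    calc (1 : ℝ) ≤ _ := hdet
      _ ≤ (((n : ℝ) + 2 + η) ^ 2) ^ n * ((D * volume.real L ^ 2) *
            (D * volume.real (polarBody L) ^ 2)) :=
          mul_le_mul_of_nonneg_left hprod (by positivity)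
      _ = _ := by rw [hPdef, ← pow_mul, mul_comm 2 n, pow_mul]; ring
  have hone : (1 : ℝ) ≤ ((n : ℝ) + 2 + η) ^ n * D * P := by
    nlinarith [mul_pos (mul_pos (pow_pos (show (0 : ℝ) < (n : ℝ) + 2 + η by positivity) n) hD) hP0]
  have : ((n : ℝ) + 2 + η) ^ n * D * P ≤ ((n : ℝ) + 2 + η) ^ n * D * (I * (1 + η)) :=
    mul_le_mul_of_nonneg_left (hp.le.trans (mul_le_mul_of_nonneg_left (by linarith) hI0.le))
      (by positivity)
  linarith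

end Vale.Agent.P254.Mahler
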